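import Vale.Agent.P057FI.Plan

/-!
Finitely many systems of extra coordinates side by side.
-/

set_option linter.all false

open Matrix Finset
open Vale.Agent.P267.H775 Vale.Agent.P057G Vale.Agent.P057PC Vale.Agent.P057TP Vale.Agent.P057SY
open Vale.Agent.P057FI

namespace Vale.Agent.P057JO

noncomputable section

variable {I : Type} [Fintype I] [DecidableEq I] {K : I → Type} [∀ i, Fintype (K i)]
  [∀ i, DecidableEq (K i)] {G : ∀ i, Matrix (K i) (K i) ℝ}

theorem qq_bd (G : ∀ i, Matrix (K i) (K i) ℝ) (v : (Σ i, K i) → ℝ) :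
    qq (blockDiagonal' G) v = ∑ i, qq (G i) (v ∘ Sigma.mk i) := by
  simp only [qq, dotProduct, mulVec, Fintype.sum_sigma]
  refine sum_congr rfl fun i _ => sum_congr rfl fun a _ => ?_
  rw [sum_eq_single i (fun j _ hj => sum_eq_zero fun b _ => by
    rw [blockDiagonal'_apply_ne _ _ _ hj.symm, zero_mul]) fun h => absurd (mem_univ i) h]
  simp only [blockDiagonal'_apply_eq, Function.comp]

theorem qq_le (hG : ∀ i, (G i).PosDef) (v : (Σ i, K i) → ℝ) (i : I) :
    qq (G i) (v ∘ Sigma.mk i) ≤ qq (blockDiagonal' G) v := by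
  rw [qq_bd]
  exact single_le_sum (f := fun i => qq (G i) (v ∘ Sigma.mk i))
    (fun j _ => qq_nonneg (hG j).posSemidef _) (mem_univ i)

theorem bd_ne {k k' : Σ i, K i} (h : blockDiagonal' G k k' ≠ 0) :
    ∃ i a b, k = ⟨i, a⟩ ∧ k' = ⟨i, b⟩ ∧ G i a b ≠ 0 := by
  obtain ⟨i, a⟩ := k
  obtain ⟨j, b⟩ := k'
  by_cases e : i = j
  · subst e
    exact ⟨i, a, b, rfl, rfl, by rwa [blockDiagonal'_apply_eq] at h⟩
  · exact absurd (blockDiagonal'_apply_ne _ _ _ e) h

theorem pd_bd (hG : ∀ i, (G i).PosDef) : (blockDiagonal' G).PosDef := by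
  refine PosDef.of_dotProduct_mulVec_pos ?_ fun x hx => ?_
  · rw [IsHermitian, blockDiagonal'_conjTranspose]
    exact congrArg _ (funext fun i => (hG i).1)
  · obtain ⟨k, hk⟩ := Function.ne_iff.1 hx
    exact ((hG k.1).dotProduct_mulVec_pos (x := x ∘ Sigma.mk k.1)
      fun e => hk (congrFun e k.2)).trans_le (qq_le hG x k.1)

theorem th_bd (hG : ∀ i, (G i).PosDef) {B : ℝ} (h : ∀ i, th (G i)⁻¹ 0 ≤ B) :
    th (blockDiagonal' G)⁻¹ 0 ≤ B ^ Fintype.card I := by
  rw [← ms_zero (pd_bd hG)]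
  refine ms_zero_le univ _ Sigma.fst _ (pd_bd hG) (fun k k' e => by_contra fun h0 => ?_)
    (fun _ => mem_univ _) fun i _ => ?_
  · obtain ⟨i, a, b, rfl, rfl, -⟩ := bd_ne h0
    exact e rfl
  · rw [← ms_equiv (Equiv.sigmaSubtype i).symm (G' := G i) (p' := fun _ => 0)
      (fun a b => (blockDiagonal'_apply_eq _ _ _ _).symm) fun _ _ => rfl, ms_zero (hG i)]
    exact h i

theorem join : JOIN := by
  intro V ι I _ _ _ _ K _ _ S X τ Y D h hY hD
  classical
  have hG : ∀ i, (X i).G.PosDef := fun i => (h i).1.pd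
  refine ⟨Σ i, K i, inferInstance, inferInstance, ⟨fun k => (X k.1).fc k.2, fun k => (X k.1).tr k.2,
    blockDiagonal' fun i => (X i).G, fun x k => (X k.1).g (x ∘ Sum.map id (Sigma.mk k.1)) k.2⟩,
    Sigma.mk, ⟨fun k => (h k.1).1.ne k.2, pd_bd hG, fun k k' h0 => ?_, fun k x x' h1 h2 => ?_,
      fun v k y => ?_⟩, ⟨fun k => (h k.1).2.tr k.2, ?_, fun k hk => ?_, ?_⟩,
    fun k => ⟨k.1, k.2, rfl⟩, fun i => ⟨fun _ => rfl, fun _ _ => rfl, fun v => qq_le hG v i⟩⟩
  · obtain ⟨i, a, b, rfl, rfl, h1⟩ := bd_ne (G := fun i => (X i).G) (k := k) (k' := k') h0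
    exact (h i).1.ort a b h1
  · exact (h k.1).1.loc k.2 _ _ h1 fun e => h2 ⟨k.1, e⟩
  · have e : ∀ x y : ι ⊕ (Σ i, K i) → ℝ, mix ((xt S ⟨fun k => (X k.1).fc k.2,
        fun k => (X k.1).tr k.2, blockDiagonal' fun i => (X i).G,
        fun x k => (X k.1).g (x ∘ Sum.map id (Sigma.mk k.1)) k.2⟩).st v) x y ∘
        Sum.map id (Sigma.mk k.1) = mix ((xt S (X k.1)).st v) (x ∘ Sum.map id (Sigma.mk k.1))
          (y ∘ Sum.map id (Sigma.mk k.1)) := fun x y => by
      funext j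
      simp only [Function.comp, mix, MS.mem_st]
      cases j <;> rfl
    simp only [e]
    exact ⟨fun a b => ((h k.1).1.aff v k.2 _).map_add _ _,
      fun a b => ((h k.1).1.aff v k.2 _).map_smul a _⟩
  · rw [Fintype.card_sigma, Nat.cast_sum]
    refine (sum_le_card_nsmul _ _ Y fun i _ => (h i).2.card).trans ?_
    rw [nsmul_eq_mul]
    exact mul_le_mul_of_nonneg_right hD hY
  · obtain ⟨j, hj⟩ := Function.ne_iff.1 hk
    exact ((h j.1).2.sep (k ∘ Sigma.mk j.1) fun e => hj (congrFun e j.2)).trans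
      (qq_le hG (toR k) j.1)
  · refine (th_bd hG fun i => (h i).2.cx).trans ?_
    rw [← Real.exp_nat_mul]
    exact Real.exp_le_exp.2 (mul_le_mul_of_nonneg_right hD hY)

end

end Vale.Agent.P057JO
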